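import Mathlib

set_option autoImplicit false

/-!
# P181, BAL: the two pure blocks (B3), (B4)
-/

namespace Vale.Agent.P181.BAL.H648

open Polynomial Finset

theorem poly_eq {P Q : ℂ[X]} {α β : ℂ} (hα : α ≠ 0)
    (h : ∀ s : ℂ, α + β * s ≠ 0 → P.eval s = Q.eval s) : P = Q := by
  apply Polynomial.eq_of_infinite_eval_eq
  have hf : {s : ℂ | α + β * s = 0}.Finite := by
    refine (Set.finite_singleton (-α / β)).subset ?_
    intro s hs
    have hs' : α + β * s = 0 := hs
    have hβ : β ≠ 0 := by
      rintro rfl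
      apply hα
      simpa using hs'
    rw [Set.mem_singleton_iff, eq_div_iff hβ]
    linear_combination hs'
  exact hf.infinite_compl.mono (fun s hs => h s hs)

theorem coeff_lin (α β : ℂ) (n k : ℕ) :
    ((C α + C β * X) ^ n : ℂ[X]).coeff k = (n.choose k : ℂ) * β ^ k * α ^ (n - k) := by
  have : ((C α + C β * X) ^ n : ℂ[X]) = ((X + C α) ^ n).comp (C β * X) := by
    simp [add_comm]
  rw [this, comp_C_mul_X_coeff, coeff_X_add_C_pow]
  ring

/-- the coefficients of the transformed polynomial -/
theorem coef {R : ℕ} {p p' : ℕ → ℂ} {α β δ : ℂ} (hα : α ≠ 0)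
    (h : ∀ s : ℂ, α + β * s ≠ 0 → ∑ i ∈ range (R + 1), p' i * s ^ i =
      (α + β * s) ^ R * ∑ i ∈ range (R + 1), p i * (δ * s / (α + β * s)) ^ i)
    {i : ℕ} (hi : i ≤ R) :
    p' i = ∑ j ∈ range (i + 1),
      p j * δ ^ j * (((R - j).choose (i - j) : ℕ) : ℂ) * β ^ (i - j) * α ^ (R - i) := by
  have key : (∑ i ∈ range (R + 1), C (p' i) * X ^ i : ℂ[X]) =
      ∑ j ∈ range (R + 1), C (p j * δ ^ j) * (X ^ j * (C α + C β * X) ^ (R - j)) := by
    apply poly_eq (β := β) hα
    intro s hs
    simp only [eval_finsetSum, eval_mul, eval_C, eval_pow, eval_X, eval_add]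
    rw [h s hs, Finset.mul_sum]
    apply Finset.sum_congr rfl
    intro j hj
    rw [Finset.mem_range] at hj
    have e : (α + β * s) ^ R = (α + β * s) ^ (R - j) * (α + β * s) ^ j := by
      rw [← pow_add]; congr 1; omega
    rw [e, div_pow, mul_pow]
    field_simp
  have h1 := congrArg (fun P : ℂ[X] => P.coeff i) key
  simp only [finsetSum_coeff, coeff_C_mul, coeff_X_pow, coeff_X_pow_mul', coeff_lin] at h1
  have h2 : ∑ x ∈ range (R + 1), p' x * (if i = x then 1 else 0) = p' i := by
    rw [Finset.sum_eq_single i]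
    · simp
    · intro b _ hb
      rw [if_neg (Ne.symm hb), mul_zero]
    · intro hh
      exact (hh (Finset.mem_range.2 (by omega))).elim
  rw [h2] at h1
  rw [h1]
  symm
  apply Finset.sum_subset_zero_on_sdiff
  · intro j hj
    rw [Finset.mem_range] at hj ⊢
    omega
  · intro j hj
    rw [Finset.mem_sdiff, Finset.mem_range, Finset.mem_range] at hj
    rw [if_neg (by omega), mul_zero]
  · intro j hj
    rw [Finset.mem_range] at hj
    rw [if_pos (by omega)]
    have e : R - j - (i - j) = R - i := by omega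
    rw [e]
    ring

theorem to_ind {r i : ℕ} (hi : i ≤ r) (f : ℕ → ℂ) :
    ∑ j ∈ range (i + 1), f j = ∑ j ∈ range (r + 1), if j ≤ i then f j else 0 := by
  rw [← Finset.sum_filter]
  congr 1
  ext j
  rw [Finset.mem_filter, Finset.mem_range, Finset.mem_range]
  omega

theorem fac_id {R j k d : ℕ} (hk : k ≤ d) (hR : j + d ≤ R) :
    (j + k).factorial * (R - (j + k)).factorial * (R - j).choose k * (j + d).choose (d - k) *
      d.factorial = (R - j).factorial * (j + d).factorial * d.choose k := by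
  have h1 := Nat.choose_mul_factorial_mul_factorial (show k ≤ R - j by omega)
  have h2 := Nat.choose_mul_factorial_mul_factorial (show d - k ≤ j + d by omega)
  have h3 := Nat.choose_mul_factorial_mul_factorial hk
  rw [show R - j - k = R - (j + k) by omega] at h1
  rw [show j + d - (d - k) = j + k by omega] at h2
  rw [← h1, ← h2, ← h3]
  ring

theorem alt_sum (d : ℕ) : ∑ k ∈ range (d + 1), ((-1 : ℂ) ^ k * (d.choose k : ℂ)) =
    if d = 0 then 1 else 0 := by
  have h := Int.alternating_sum_range_choose (n := d)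
  have h' := congrArg (Int.cast : ℤ → ℂ) h
  push_cast at h'
  exact h'

/-- the inner sum -/
theorem inner {R r j n : ℕ} (hr : r ≤ R) (hj : j ≤ r) (hn : n ≤ r) (pj qn α β δ : ℂ) :
    ∑ i ∈ range (r + 1), ((-1) ^ i * (i.factorial : ℂ) * ((R - i).factorial : ℂ)) *
      ((if j ≤ i then pj * δ ^ j * (((R - j).choose (i - j) : ℕ) : ℂ) * β ^ (i - j) *
          α ^ (R - i) else 0) *
        (if i ≤ n then qn * δ ^ (r - n) * ((n.choose (n - i) : ℕ) : ℂ) * β ^ (n - i) *
          α ^ i else 0)) =
      if n = j then α ^ R * δ ^ r * ((-1) ^ j * (j.factorial : ℂ) * ((R - j).factorial : ℂ) *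
        pj * qn) else 0 := by
  rcases lt_or_ge n j with h | h
  · rw [if_neg (by omega)]
    apply Finset.sum_eq_zero
    intro i _
    by_cases h1 : j ≤ i
    · rw [if_neg (show ¬ i ≤ n by omega), mul_zero, mul_zero]
    · rw [if_neg h1, zero_mul, mul_zero]
  obtain ⟨d, rfl⟩ : ∃ d, n = j + d := ⟨n - j, by omega⟩
  have e1 : ∀ f : ℕ → ℂ, (∀ i, ¬ (j ≤ i ∧ i ≤ j + d) → f i = 0) →
      ∑ i ∈ range (r + 1), f i = ∑ k ∈ range (d + 1), f (j + k) := by
    intro f hf
    have e2 : ∑ i ∈ Finset.Ico j (j + d + 1), f i = ∑ i ∈ range (r + 1), f i := by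
      apply Finset.sum_subset
      · intro i hi
        rw [Finset.mem_Ico] at hi
        rw [Finset.mem_range]
        omega
      · intro i _ hi
        rw [Finset.mem_Ico] at hi
        exact hf i (by omega)
    rw [← e2, Finset.sum_Ico_eq_sum_range]
    congr 2
    omega
  rw [e1 _ (by
    intro i hi
    by_cases h1 : j ≤ i
    · rw [if_neg (show ¬ i ≤ j + d by omega), mul_zero, mul_zero]
    · rw [if_neg h1, zero_mul, mul_zero])]
  have hd : (d.factorial : ℂ) ≠ 0 := by exact_mod_cast d.factorial_ne_zero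
  have e3 : ∀ k ∈ range (d + 1), ((-1 : ℂ) ^ (j + k) * ((j + k).factorial : ℂ) *
      ((R - (j + k)).factorial : ℂ)) *
      ((if j ≤ j + k then pj * δ ^ j * (((R - j).choose (j + k - j) : ℕ) : ℂ) *
          β ^ (j + k - j) * α ^ (R - (j + k)) else 0) *
        (if j + k ≤ j + d then qn * δ ^ (r - (j + d)) *
          (((j + d).choose (j + d - (j + k)) : ℕ) : ℂ) * β ^ (j + d - (j + k)) *
          α ^ (j + k) else 0)) =
      ((-1) ^ j * (((R - j).factorial : ℂ) * ((j + d).factorial : ℂ) / (d.factorial : ℂ)) *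
        pj * qn * (δ ^ (j + (r - (j + d)))) * β ^ d * α ^ R) *
        ((-1) ^ k * (d.choose k : ℂ)) := by
    intro k hk
    rw [Finset.mem_range] at hk
    rw [if_pos (by omega), if_pos (by omega)]
    have f1 : j + k - j = k := by omega
    have f2 : j + d - (j + k) = d - k := by omega
    rw [f1, f2]
    have hF : (((j + k).factorial : ℂ) * ((R - (j + k)).factorial : ℂ) *
        (((R - j).choose k : ℕ) : ℂ) * (((j + d).choose (d - k) : ℕ) : ℂ)) =
        ((R - j).factorial : ℂ) * ((j + d).factorial : ℂ) / (d.factorial : ℂ) *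
          (d.choose k : ℂ) := by
      rw [div_mul_eq_mul_div, eq_div_iff hd]
      exact_mod_cast fac_id (R := R) (by omega : k ≤ d) (by omega)
    have g1 : (-1 : ℂ) ^ (j + k) = (-1) ^ j * (-1) ^ k := pow_add _ _ _
    have g2 : δ ^ (j + (r - (j + d))) = δ ^ j * δ ^ (r - (j + d)) := pow_add _ _ _
    have g3 : β ^ d = β ^ k * β ^ (d - k) := by
      rw [← pow_add]; congr 1; omega
    have g4 : α ^ R = α ^ (R - (j + k)) * α ^ (j + k) := by
      rw [← pow_add]; congr 1; omega
    rw [g1, g2, g3, g4]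
    linear_combination ((-1 : ℂ) ^ j * (-1) ^ k * (pj * δ ^ j * β ^ k * α ^ (R - (j + k)) *
      (qn * δ ^ (r - (j + d)) * β ^ (d - k) * α ^ (j + k)))) * hF
  rw [Finset.sum_congr rfl e3, ← Finset.mul_sum, alt_sum]
  by_cases hd0 : d = 0
  · subst hd0
    rw [if_pos rfl, if_pos (by omega), add_zero]
    have g : j + (r - j) = r := by omega
    rw [g, Nat.factorial_zero, Nat.cast_one, div_one, pow_zero]
    ring
  · rw [if_neg hd0, if_neg (by omega), mul_zero]

/-- the contraction, letter free -/
theorem contr (R r : ℕ) (p p' q q' : ℕ → ℂ) (α β δ : ℂ) (hr : r ≤ R) (hα : α ≠ 0)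
    (hp : ∀ s : ℂ, α + β * s ≠ 0 → ∑ i ∈ range (R + 1), p' i * s ^ i =
      (α + β * s) ^ R * ∑ i ∈ range (R + 1), p i * (δ * s / (α + β * s)) ^ i)
    (hq : ∀ s : ℂ, α + β * s ≠ 0 → ∑ i ∈ range (r + 1), q' i * s ^ i =
      (α + β * s) ^ r * ∑ i ∈ range (r + 1), q i * (δ * s / (α + β * s)) ^ i) :
    ∑ i ∈ range (r + 1), (-1) ^ i * (i.factorial : ℂ) * ((R - i).factorial : ℂ) * p' i *
        q' (r - i) =
      α ^ R * δ ^ r * ∑ i ∈ range (r + 1), (-1) ^ i * (i.factorial : ℂ) *
        ((R - i).factorial : ℂ) * p i * q (r - i) := by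
  have hp' : ∀ i ∈ range (r + 1), p' i = ∑ j ∈ range (r + 1), if j ≤ i then
      p j * δ ^ j * (((R - j).choose (i - j) : ℕ) : ℂ) * β ^ (i - j) * α ^ (R - i) else 0 := by
    intro i hi
    rw [Finset.mem_range] at hi
    rw [coef hα hp (by omega : i ≤ R), to_ind (by omega : i ≤ r)]
  have hq' : ∀ i ∈ range (r + 1), q' (r - i) = ∑ n ∈ range (r + 1), if i ≤ n then
      q (r - n) * δ ^ (r - n) * ((n.choose (n - i) : ℕ) : ℂ) * β ^ (n - i) * α ^ i else 0 := by
    intro i hi
    rw [Finset.mem_range] at hi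
    rw [coef hα hq (by omega : r - i ≤ r), to_ind (by omega : r - i ≤ r),
      ← Finset.sum_range_reflect]
    apply Finset.sum_congr rfl
    intro n hn
    rw [Finset.mem_range] at hn
    have f1 : r + 1 - 1 - n = r - n := by omega
    rw [f1]
    by_cases h : i ≤ n
    · rw [if_pos (by omega), if_pos h]
      have f2 : r - (r - n) = n := by omega
      have f3 : r - i - (r - n) = n - i := by omega
      have f4 : r - (r - i) = i := by omega
      rw [f2, f3, f4]
    · rw [if_neg (by omega), if_neg h]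
  calc ∑ i ∈ range (r + 1), (-1) ^ i * (i.factorial : ℂ) * ((R - i).factorial : ℂ) * p' i *
        q' (r - i)
      = ∑ i ∈ range (r + 1), ∑ j ∈ range (r + 1), ∑ n ∈ range (r + 1),
        ((-1) ^ i * (i.factorial : ℂ) * ((R - i).factorial : ℂ)) *
        ((if j ≤ i then p j * δ ^ j * (((R - j).choose (i - j) : ℕ) : ℂ) * β ^ (i - j) *
          α ^ (R - i) else 0) *
        (if i ≤ n then q (r - n) * δ ^ (r - n) * ((n.choose (n - i) : ℕ) : ℂ) * β ^ (n - i) *
          α ^ i else 0)) := by
        apply Finset.sum_congr rfl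
        intro i hi
        rw [hp' i hi, hq' i hi, mul_assoc, Finset.sum_mul_sum, Finset.mul_sum]
        apply Finset.sum_congr rfl
        intro j _
        rw [Finset.mul_sum]
    _ = ∑ j ∈ range (r + 1), ∑ n ∈ range (r + 1), ∑ i ∈ range (r + 1),
        ((-1) ^ i * (i.factorial : ℂ) * ((R - i).factorial : ℂ)) *
        ((if j ≤ i then p j * δ ^ j * (((R - j).choose (i - j) : ℕ) : ℂ) * β ^ (i - j) *
          α ^ (R - i) else 0) *
        (if i ≤ n then q (r - n) * δ ^ (r - n) * ((n.choose (n - i) : ℕ) : ℂ) * β ^ (n - i) *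
          α ^ i else 0)) := by
        rw [Finset.sum_comm]
        apply Finset.sum_congr rfl
        intro j _
        rw [Finset.sum_comm]
    _ = ∑ j ∈ range (r + 1), ∑ n ∈ range (r + 1), if n = j then
        α ^ R * δ ^ r * ((-1) ^ j * (j.factorial : ℂ) * ((R - j).factorial : ℂ) * p j *
          q (r - n)) else 0 := by
        apply Finset.sum_congr rfl
        intro j hj
        apply Finset.sum_congr rfl
        intro n hn
        rw [Finset.mem_range] at hj hn
        exact inner hr (by omega) (by omega) _ _ _ _ _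
    _ = ∑ j ∈ range (r + 1), α ^ R * δ ^ r * ((-1) ^ j * (j.factorial : ℂ) *
        ((R - j).factorial : ℂ) * p j * q (r - j)) := by
        apply Finset.sum_congr rfl
        intro j hj
        rw [Finset.sum_ite_eq' (range (r + 1)) j, if_pos hj]
    _ = _ := by rw [Finset.mul_sum]

/-- the degree, letter free -/
theorem deg (R N : ℕ) (p p' : ℕ → ℂ)
    (h : ∀ s : ℂ, 1 + s ≠ 0 → ∑ i ∈ range (N + 1), p' i * s ^ i =
      (1 + s) ^ R * ∑ i ∈ range (N + 1), p i * (s / (1 + s)) ^ i) :
    ∀ i, R < i → i ≤ N → p i = 0 := by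
  have step : ∀ m, R < m → m ≤ N → (∀ j, m < j → j ≤ N → p j = 0) → p m = 0 := by
    intro m hm hmN hz
    have key : ((C 1 + C 1 * X) ^ (m - R) * ∑ i ∈ range (N + 1), C (p' i) * X ^ i : ℂ[X]) =
        ∑ j ∈ range (m + 1), C (p j) * (X ^ j * (C 1 + C 1 * X) ^ (m - j)) := by
      apply poly_eq (α := 1) (β := 1) one_ne_zero
      intro s hs
      rw [one_mul] at hs
      simp only [eval_finsetSum, eval_mul, eval_C, eval_pow, eval_X, eval_add, one_mul]
      have e0 : ∑ i ∈ range (N + 1), p i * (s / (1 + s)) ^ i =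
          ∑ i ∈ range (m + 1), p i * (s / (1 + s)) ^ i := by
        symm
        apply Finset.sum_subset
        · intro i hi
          rw [Finset.mem_range] at hi ⊢
          omega
        · intro i hi hi'
          rw [Finset.mem_range] at hi hi'
          rw [hz i (by omega) (by omega), zero_mul]
      rw [h s hs, e0, ← mul_assoc, ← pow_add, show m - R + R = m by omega, Finset.mul_sum]
      apply Finset.sum_congr rfl
      intro j hj
      rw [Finset.mem_range] at hj
      have e : (1 + s) ^ m = (1 + s) ^ (m - j) * (1 + s) ^ j := by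
        rw [← pow_add]; congr 1; omega
      rw [e, div_pow]
      field_simp
    have h1 := congrArg (Polynomial.eval (-1)) key
    simp only [eval_finsetSum, eval_mul, eval_C, eval_pow, eval_X, eval_add] at h1
    rw [show (1 : ℂ) + 1 * -1 = 0 by ring, zero_pow (by omega), zero_mul,
      Finset.sum_range_succ, Finset.sum_eq_zero (fun j hj => by
        rw [Finset.mem_range] at hj
        rw [zero_pow (by omega), mul_zero, mul_zero]), zero_add, Nat.sub_self, pow_zero,
      mul_one] at h1
    have h2 : ((-1 : ℂ)) ^ m ≠ 0 := pow_ne_zero _ (by norm_num)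
    exact (mul_eq_zero.1 h1.symm).resolve_right h2
  have main : ∀ d i, N - i = d → R < i → i ≤ N → p i = 0 := by
    intro d
    induction d using Nat.strong_induction_on with
    | _ d ih =>
      intro i hd hi hiN
      exact step i hi hiN fun j hj hjN => ih (N - j) (by omega) j rfl (by omega) hjN
  exact fun i => main _ i rfl

end Vale.Agent.P181.BAL.H648
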