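import Vale.Agent.P181.BAL.Defs
import Vale.Agent.P181.BAL.H648.Pure

set_option autoImplicit false

/-!
# P181, BAL: blocks (B3) and (B4)
-/

namespace Vale.Agent.P181.BAL.H648

/-- **(B3)** -/
theorem contrB : Contr := fun R r p p' q q' α β δ hr hα _ hp hq =>
  contr R r p p' q q' α β δ hr hα hp hq

/-- **(B4)** -/
theorem degB : Deg := fun R N p p' h => deg R N p p' h

end Vale.Agent.P181.BAL.H648
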